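import Vale.Agent.P097O.Defs
import Vale.Agent.P097E.PolyDefs

/-!
# P097G3: the core without any bound on `Q` (definitions and statements)
-/

open Filter Topology Set Metric MeasureTheory ComplexConjugate
open Vale.Agent.P097C Vale.Agent.P097O

namespace Vale.Agent.P097G3

/-- INPUT (angles), box form on the upper half of the strip: the sum over the levels `k ≤ L` of
the mean of the squares of the suprema of `|g| t` over the boxes is `o(L ^ 2)` along a sequence -/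
def TH (r : ℝ) (g : ℂ → ℂ) : Prop := ∀ δ : ℝ, 0 < δ → ∀ L₀ : ℕ, ∃ L : ℕ, L₀ ≤ L ∧
  ∃ b : ℕ → ℕ → ℝ, (∀ k i, 0 ≤ b k i) ∧
    ∑ k ∈ Finset.range (L + 1), (∑ i ∈ Finset.range (2 ^ k), b k i ^ 2) / 2 ^ k ≤ δ * (L : ℝ) ^ 2 ∧
    ∀ k ≤ L, ∀ y ∈ St r, 0 ≤ y.im → P097K.Band r k y →
      ‖g y‖ * (r - y.im) ≤ b k ⌊Int.fract y.re * 2 ^ k⌋₊

/-- the moderate band in one layer -/
def BS (r : ℝ) (g : ℂ → ℂ) (b La d : ℝ) : Set ℂ := {y | 0 ≤ y.re ∧ y.re ≤ 1 ∧ d / La ≤ r - y.im ∧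
  r - y.im ≤ 2 * d ∧ Real.exp (-b) ≤ ‖g y‖ ∧ ‖g y‖ ≤ Real.exp b}

/-- INPUT (band): at arbitrarily small depths the moderate band has small area -/
def BAND (r : ℝ) (g : ℂ → ℂ) : Prop := ∀ b La ε d₀ : ℝ, 0 ≤ b → 1 ≤ La → 0 < ε → 0 < d₀ →
  ∃ d : ℝ, 0 < d ∧ d < d₀ ∧ volume (BS r g b La d) < ENNReal.ofReal (ε * d)

/-- potential form of `TH` -/
def THP (r : ℝ) (g : ℂ → ℂ) : Prop := ∀ R δ lam₀ : ℝ, 1 ≤ R → 0 < δ → ∃ lam ≥ lam₀, ∃ V : ℂ → ℝ,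
  Bar (St r) V ∧ (∀ t : ℝ, V t ≤ δ * lam ^ 2) ∧ ∀ y ∈ St r, UJ V y 0 ∧
    (Real.exp (-(lam * R)) ≤ dd r y → UJ V y (-(2 * ‖g y‖ ^ 2)))

/-- potential form of `BAND` -/
def BANDP (r : ℝ) (g : ℂ → ℂ) : Prop := ∀ b La ε d₀ : ℝ, 0 ≤ b → 1 ≤ La → 0 < ε → 0 < d₀ →
  ∃ d : ℝ, 0 < d ∧ d < d₀ ∧ ∃ V : ℂ → ℝ, Bar (St r) V ∧ (∀ t : ℝ, V t ≤ ε) ∧ ∀ y ∈ St r,
    UJ V y 0 ∧ (d / La ≤ dd r y → dd r y ≤ 2 * d → Real.exp (-b) ≤ ‖g y‖ → ‖g y‖ ≤ Real.exp b →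
      UJ V y (-(1 / d ^ 2)))

/-- symmetry and period of `|g|` -/
def Sym (r : ℝ) (g : ℂ → ℂ) : Prop :=
  ∀ y ∈ St r, ‖g (conj y)‖ = ‖g y‖ ∧ ∀ m : ℤ, ‖g (y + m)‖ = ‖g y‖

/-- THE CORE -/
def Spec_CORE3 : Prop := ∀ (r c T : ℝ) (k : ℕ) (θ H Q Y φ p : ℂ → ℂ) (n : ℕ),
  P097Top.Cur r c θ H Q → P097E.Pol r k θ Q → TH r (deriv θ) → BAND r (deriv θ) →
  P097Top.LeafD r c θ H n T Y φ p → P097Top.NoReg r n T Y → False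

/-! ## the rows -/

/-- 1901 -/
def S_SYM : Prop := ∀ (r c C : ℝ) (θ h g Q : ℂ → ℂ), P097K.SD r θ h g Q c C → Sym r g

/-- 1902 -/
def S_PG : Prop := ∀ (r : ℝ) (k : ℕ) (θ Q : ℂ → ℂ), 0 < r → P097E.Pol r k θ Q → PG r (deriv θ)

/-- 1903 -/
def S_THP : Prop := ∀ (r : ℝ) (g : ℂ → ℂ), 0 < r → Sym r g → TH r g → THP r g

/-- 1904 -/
def S_BANDP : Prop := ∀ (r : ℝ) (g : ℂ → ℂ), 0 < r → ContinuousOn g (St r) → Sym r g →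
  BAND r g → BANDP r g

/-- 1905: the barrier for the angles -/
def S_WR : Prop := ∀ (n : ℕ) [NeZero n] (r ρ c C : ℝ) (θ h g Q : ℂ → ℂ) (Y : ℂ → ZMod n → ℂ),
  P097K.SD r θ h g Q c C → THP r g → Cv r ρ Y → ∀ K ε δ lam₀ : ℝ, 1 ≤ K → 0 < ε → 0 < δ →
    ∃ lam ≥ lam₀, ∃ (Λ : Finset ℝ) (W : ℂ → ℝ), Λ.card ≤ n ∧ (∀ L ∈ Λ, lam ≤ L) ∧
      Bar (St ρ) W ∧ W 0 ≤ ε ∧ ∀ x ∈ St ρ, (W x < 1 → ∀ j, |(θ (Y x j)).im| ≤ δ * lam) ∧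
        (DrvAt r g Y K lam Λ x → UJ W x 0)

/-- 1906: one set of low vertices -/
def S_WONE : Prop := ∀ (n : ℕ) [NeZero n] (r ρ : ℝ) (g : ℂ → ℂ) (Y : ℂ → ZMod n → ℂ),
  BANDP r g → Cv r ρ Y → ∀ ε : ℝ, 0 < ε → ∀ b N₀ : ℝ, ∃ N ≥ N₀, 0 ≤ b →
    ∀ T : Finset (ZMod n), T ≠ Finset.univ → ∃ a : ℂ → ℝ, Bar (St ρ) a ∧ a 0 ≤ ε ∧ ∀ x ∈ St ρ,
      ((∀ j ∉ T, dd r (Y x j) ≤ Real.exp (-N)) → 1 ≤ a x) ∧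
      (Drv T (fun j => g (Y x j)) (fun j => deriv (fun x => Y x j) x) b → UJ a x 0)

/-- 1907: the last barrier -/
def S_WFIN : Prop := ∀ (n : ℕ) [NeZero n] (r ρ : ℝ) (g : ℂ → ℂ) (Y : ℂ → ZMod n → ℂ),
  BANDP r g → Cv r ρ Y → ∀ ε : ℝ, 0 < ε → ∃ lam₀ : ℝ, ∀ lam ≥ lam₀, ∀ K : ℝ, 1 ≤ K →
    ∃ (Λ : Finset ℝ) (N : ℝ) (W : ℂ → ℝ), Λ.card ≤ n ∧ (∀ L ∈ Λ, lam ≤ L) ∧ lam ≤ N ∧
      Bar (St ρ) W ∧ W 0 ≤ ε ∧ ∀ x ∈ St ρ,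
        ((∃ j, dd r (Y x j) ≤ Real.exp (-N)) → 1 ≤ W x) ∧ (DrvAt r g Y K lam Λ x → UJ W x 0)

/-- 1908 -/
def S_TAME : Prop := ∀ (n : ℕ) [NeZero n] (r ρ c C : ℝ) (θ h g Q : ℂ → ℂ) Y s l τ η,
  P097K.SD r θ h g Q c C → PG r g → AL n r ρ c θ h g Y s l τ η → ∀ (ε : ℝ) (m : ℕ), 0 < ε →
  ∃ K lam₀ : ℝ, 1 ≤ K ∧ ∀ lam ≥ lam₀, ∀ Λ : Finset ℝ, Λ.card ≤ m → (∀ L ∈ Λ, lam ≤ L) →
    ∃ W, Bar (St ρ) W ∧ W 0 ≤ ε ∧ ∀ x ∈ St ρ, (∀ j, |(θ (Y x j)).im| ≤ lam) →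
      (∀ j, ‖h (Y x j)‖ ≤ Real.exp lam) → W x < 1 → UJ W x 0 ∧ Good r c g s l K lam Λ (Y x)

/-- 1909 -/
def S_GD : Prop := ∀ (n : ℕ) [NeZero n] (r ρ c C : ℝ) (θ h g Q : ℂ → ℂ) Y s l τ η,
  P097K.SD r θ h g Q c C → PG r g → AL n r ρ c θ h g Y s l τ η → ∀ K : ℝ, 1 ≤ K →
  ∃ K' lam₀ : ℝ, 1 ≤ K' ∧ ∀ lam ≥ lam₀, ∀ Λ : Finset ℝ, (∀ L ∈ Λ, lam ≤ L) → ∀ x ∈ St ρ,
    Good r c g s l K lam Λ (Y x) → DrvAt r g Y K' lam Λ x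

/-- 1910 -/
def S_ACORE : Prop := ∀ (n : ℕ) [NeZero n] (r ρ c C : ℝ) (θ h g Q : ℂ → ℂ) Y s l τ η,
  P097K.SD r θ h g Q c C → PG r g → THP r g → BANDP r g → AL n r ρ c θ h g Y s l τ η →
  AX n ρ θ h g Y → False

end Vale.Agent.P097G3
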