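import Vale.Agent.P097K.Box

/-!
# P097G3: the potential of a compact set of small area
-/

set_option linter.all false

open Filter Topology Set Metric ComplexConjugate MeasureTheory
open Vale.Agent.P097C Vale.Agent.P097K Vale.Agent.P097K.Box

namespace Vale.Agent.P097G3

namespace Area

/-- smoothed Green function of the disc -/
noncomputable def gk (a : ℂ) (k : ℝ) (w : ℂ) : ℝ :=
  Real.log (‖1 - conj a * w‖ ^ 2 + k) - Real.log (‖w - a‖ ^ 2 + k)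

lemma iden (a w : ℂ) : ‖1 - conj a * w‖ ^ 2 = ‖w - a‖ ^ 2 + (1 - ‖a‖ ^ 2) * (1 - ‖w‖ ^ 2) := by
  simp only [Complex.sq_norm, Complex.normSq_apply, Complex.sub_re, Complex.sub_im, Complex.mul_re,
    Complex.mul_im, Complex.conj_re, Complex.conj_im, Complex.one_re, Complex.one_im]
  ring

lemma gk_ej (a w : ℂ) {k : ℝ} (hk : 0 < k) : ∃ b, EJ (gk a k) w b
    (4 * k * ‖a‖ ^ 2 / (‖1 - conj a * w‖ ^ 2 + k) ^ 2 - 4 * k / (‖w - a‖ ^ 2 + k) ^ 2) := by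
  have a1 : AnalyticAt ℂ (fun x : ℂ => 1 - conj a * x) w := by fun_prop
  have a2 : AnalyticAt ℂ (fun x : ℂ => x - a) w := by fun_prop
  have d1 : deriv (fun x : ℂ => 1 - conj a * x) w = -conj a := by
    have := ((hasDerivAt_id w).const_mul (conj a)).const_sub 1
    simpa using this.deriv
  have d2 : deriv (fun x : ℂ => x - a) w = 1 := ((hasDerivAt_id w).sub_const a).deriv
  have h1 := EJ.jensen (k := k) a1 (by positivity)
  have h2 := EJ.jensen (k := k) a2 (by positivity)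
  refine ⟨_, ((h2.sub h1).congr (.of_forall fun x => by simp only [gk]; ring)).cast rfl ?_⟩
  rw [d1, d2, norm_neg, Complex.norm_conj, norm_one]
  ring

lemma gk_nn {a w : ℂ} {k : ℝ} (hk : 0 < k) (ha : ‖a‖ ≤ 1) (hw : ‖w‖ ≤ 1) : 0 ≤ gk a k w := by
  have h1 : 0 ≤ 1 - ‖a‖ ^ 2 := by nlinarith [norm_nonneg a]
  have h2 : 0 ≤ 1 - ‖w‖ ^ 2 := by nlinarith [norm_nonneg w]
  refine sub_nonneg.2 (Real.log_le_log (by positivity) ?_)
  rw [iden]
  nlinarith [mul_nonneg h1 h2]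

lemma gk_le {a w : ℂ} {k β : ℝ} (hk : 0 < k) (ha : ‖a‖ ≤ 1) (hw : ‖w‖ ≤ 1) (β0 : 0 < β)
    (hβ : β ≤ ‖w - a‖) : gk a k w ≤ (1 - ‖a‖ ^ 2) / β ^ 2 := by
  have h1 : 0 ≤ 1 - ‖a‖ ^ 2 := by nlinarith [norm_nonneg a]
  have h2 : 0 ≤ 1 - ‖w‖ ^ 2 := by nlinarith [norm_nonneg w]
  have p : 0 < ‖w - a‖ ^ 2 + k := by positivity
  unfold gk
  rw [← Real.log_div (by positivity) p.ne']
  refine (Real.log_le_sub_one_of_pos (by positivity)).trans ?_
  rw [div_sub_one p.ne', iden]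
  refine div_le_div₀ h1 ?_ (by positivity) ?_
  · nlinarith [mul_nonneg h1 (sq_nonneg ‖w‖)]
  · nlinarith [pow_le_pow_left₀ β0.le hβ 2]

lemma lap0 {a w : ℂ} {k : ℝ} (hk : 0 < k) (ha : ‖a‖ ≤ 1) (hw : ‖w‖ ≤ 1) :
    4 * k * ‖a‖ ^ 2 / (‖1 - conj a * w‖ ^ 2 + k) ^ 2 - 4 * k / (‖w - a‖ ^ 2 + k) ^ 2 ≤ 0 := by
  have h1 : 0 ≤ 1 - ‖a‖ ^ 2 := by nlinarith [norm_nonneg a]
  have h2 : 0 ≤ 1 - ‖w‖ ^ 2 := by nlinarith [norm_nonneg w]
  refine sub_nonpos.2 (div_le_div₀ (by positivity) (by nlinarith) (by positivity) ?_)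
  refine pow_le_pow_left₀ (by positivity) ?_ 2
  rw [iden]
  nlinarith [mul_nonneg h1 h2]

lemma lap1 {a w : ℂ} {k : ℝ} (hk : 0 < k) (ha : ‖a‖ ≤ 1) (h : ‖w - a‖ ^ 2 ≤ k)
    (h' : 2 * k ≤ (1 - ‖a‖ ^ 2) * (1 - ‖w‖ ^ 2)) :
    4 * k * ‖a‖ ^ 2 / (‖1 - conj a * w‖ ^ 2 + k) ^ 2 - 4 * k / (‖w - a‖ ^ 2 + k) ^ 2 ≤
      -(3 / (4 * k)) := by
  have h1 : 0 ≤ 1 - ‖a‖ ^ 2 := by nlinarith [norm_nonneg a]
  set B := ‖w - a‖ ^ 2 + k with hB
  have B0 : 0 < B := by positivity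
  have e1 : 4 * k * ‖a‖ ^ 2 / (‖1 - conj a * w‖ ^ 2 + k) ^ 2 ≤ 4 * k / (2 * B) ^ 2 := by
    refine div_le_div₀ (by positivity) (by nlinarith) (by positivity) ?_
    refine pow_le_pow_left₀ (by positivity) ?_ 2
    rw [iden]
    linarith
  have e2 : 4 * k / (2 * B) ^ 2 - 4 * k / B ^ 2 = -(3 * k / B ^ 2) := by field_simp; ring
  have e3 : 3 / (4 * k) ≤ 3 * k / B ^ 2 := by
    rw [div_le_div_iff₀ (by positivity) (by positivity)]
    have : B ^ 2 ≤ (2 * k) ^ 2 := pow_le_pow_left₀ B0.le (by linarith) 2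
    nlinarith
  linarith

lemma ww_per (r : ℝ) (y : ℂ) (m : ℤ) : ww r (y - m) = ww r y := by
  rw [ww, ww, show -(2 * (Real.pi : ℂ)) * (Complex.I * (y - m) + r) =
    -(2 * Real.pi) * (Complex.I * y + r) + m * (2 * Real.pi * Complex.I) by ring,
    Complex.exp_add, Complex.exp_int_mul_two_pi_mul_I, mul_one]

lemma ww_an (r : ℝ) (y : ℂ) : AnalyticAt ℂ (ww r) y := by unfold ww; fun_prop

lemma ww_d (r : ℝ) (y : ℂ) : ‖deriv (ww r) y‖ = 2 * Real.pi * ‖ww r y‖ := by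
  have h : HasDerivAt (ww r) (ww r y * (-(2 * Real.pi) * (Complex.I * 1))) y :=
    ((((hasDerivAt_id y).const_mul Complex.I).add_const (r : ℂ)).const_mul
      (-(2 * (Real.pi : ℂ)))).cexp
  rw [h.deriv]
  simp [abs_of_pos Real.pi_pos]
  ring

lemma ww_sub {r δ : ℝ} {y c : ℂ} (hc : c.im < r) (h : ‖y - c‖ ≤ δ) (hδ : 2 * Real.pi * δ ≤ 1) :
    ‖ww r y - ww r c‖ ≤ 4 * Real.pi * δ := by
  have p := Real.pi_pos
  have e : ww r y - ww r c = ww r c * (Complex.exp (-(2 * Real.pi) * Complex.I * (y - c)) - 1) := by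
    rw [mul_sub, mul_one, ww, ww, ← Complex.exp_add]
    congr 2
    ring
  have n : ‖-(2 * (Real.pi : ℂ)) * Complex.I * (y - c)‖ ≤ 2 * Real.pi * δ := by
    simp only [norm_mul, norm_neg, Complex.norm_I, Complex.norm_ofNat, Complex.norm_real,
      Real.norm_eq_abs, abs_of_pos p, mul_one]
    gcongr
  have h1 := Complex.norm_exp_sub_one_le (n.trans hδ)
  rw [e, norm_mul]
  have h2 := (ww_lt hc).le
  have h3 := mul_le_mul h2 h1 (norm_nonneg _) zero_le_one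
  linarith

/-- the gap between the moduli -/
noncomputable def be (r : ℝ) : ℝ := Real.exp (-(Real.pi * r)) - Real.exp (-(2 * Real.pi) * r)

lemma be_pos {r : ℝ} (hr : 0 < r) : 0 < be r :=
  sub_pos.2 (Real.exp_lt_exp.2 (by nlinarith [Real.pi_pos]))

/-- the constant -/
noncomputable def C0 (r : ℝ) : ℝ :=
  64 * Real.pi ^ 3 * Real.exp (8 * Real.pi * r) / be r ^ 2

lemma C0_pos {r : ℝ} (hr : 0 < r) : 0 < C0 r := by
  have := be_pos hr; have := Real.pi_pos; unfold C0; positivity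

lemma up {r δ m : ℝ} {c : ℂ} (hr : 0 < r) (δ0 : 0 < δ) (m0 : 0 < m) (h1 : r / 2 ≤ c.im)
    (h2 : c.im ≤ r - m) (hδ : 2 * Real.pi * δ ≤ 1)
    (hk : 2 * (4 * Real.pi * δ) ^ 2 ≤ (1 - Real.exp (-(2 * Real.pi) * m) ^ 2) ^ 2) :
    ∃ U : ℂ → ℝ, Bar (St r) U ∧ (∀ t : ℝ, U t ≤ C0 r * δ ^ 2 * (r - c.im)) ∧
      ∀ y ∈ St r, UJ U y 0 ∧ (y.im ≤ r - m → (∃ j : ℤ, ‖y - j - c‖ ≤ δ) → UJ U y (-1)) := by
  have p := Real.pi_pos
  set k := (4 * Real.pi * δ) ^ 2 with hkd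
  have k0 : 0 < k := by positivity
  set a := ww r c with ha
  have c1 : c.im < r := by linarith
  have a1 : ‖a‖ ≤ 1 := (ww_lt c1).le
  set s := k * Real.exp (8 * Real.pi * r) with hs
  have s0 : 0 < s := by positivity
  have y1 : ∀ y ∈ St r, y.im < r := fun y hy => (abs_lt.1 hy).2
  have J : ∀ y, ∃ b, EJ (fun y => s * gk a k (ww r y)) y b (s * ((4 * k * ‖a‖ ^ 2 /
      (‖1 - conj a * ww r y‖ ^ 2 + k) ^ 2 - 4 * k / (‖ww r y - a‖ ^ 2 + k) ^ 2) *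
        ‖deriv (ww r) y‖ ^ 2)) := fun y =>
    let ⟨b, hb⟩ := gk_ej a (ww r y) k0
    ⟨_, (hb.pull (ww_an r y)).smul s⟩
  have sm : ∀ z : ℂ, z.im ≤ r - m → 1 - Real.exp (-(2 * Real.pi) * m) ^ 2 ≤ 1 - ‖ww r z‖ ^ 2 :=
    fun z hz => by
      rw [ww_norm]
      exact sub_le_sub_left (pow_le_pow_left₀ (Real.exp_pos _).le
        (Real.exp_le_exp.2 (by nlinarith)) 2) _
  refine ⟨fun y => s * gk a k (ww r y), ⟨fun y _ => (J y).choose_spec.continuousAt.continuousWithinAt,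
    fun y hy => mul_nonneg s0.le (gk_nn k0 a1 (ww_lt (y1 y hy)).le)⟩, fun t => ?_,
    fun y hy => ⟨(J y).choose_spec.uj.mono (mul_nonpos_of_nonneg_of_nonpos s0.le
      (mul_nonpos_of_nonpos_of_nonneg (lap0 k0 a1 (ww_lt (y1 y hy)).le) (sq_nonneg _))),
      fun hm ⟨j, hj⟩ => (J y).choose_spec.uj.mono ?_⟩⟩
  · have t1 : ((t : ℂ)).im < r := by simpa using hr
    have b1 : be r ≤ ‖ww r t - a‖ := by
      have e1 : Real.exp (-(Real.pi * r)) ≤ ‖a‖ := by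
        rw [ha, ww_norm]; exact Real.exp_le_exp.2 (by nlinarith)
      have e2 : ‖ww r t‖ = Real.exp (-(2 * Real.pi) * r) := by rw [ww_norm]; simp
      have e3 := norm_sub_norm_le a (ww r t)
      rw [norm_sub_rev] at e3
      unfold be
      linarith
    have b2 := gk_le k0 a1 (ww_lt t1).le (be_pos hr) b1
    have b3 : 1 - ‖a‖ ^ 2 ≤ 4 * Real.pi * (r - c.im) := by
      rw [ha, ww_norm, ← Real.exp_nat_mul]
      have := Real.add_one_le_exp ((2 : ℕ) * (-(2 * Real.pi) * (r - c.im)))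
      push_cast at this ⊢
      linarith
    have b4 := be_pos hr
    refine (mul_le_mul_of_nonneg_left (b2.trans (div_le_div_of_nonneg_right b3 (sq_nonneg _)))
      s0.le).trans_eq ?_
    simp only [hs, hkd, C0]
    field_simp
    ring
  · have e1 : ‖ww r y - a‖ ≤ 4 * Real.pi * δ := by
      rw [← ww_per r y j]; exact ww_sub c1 hj hδ
    have q0 : 0 ≤ 1 - Real.exp (-(2 * Real.pi) * m) ^ 2 := by
      have : Real.exp (-(2 * Real.pi) * m) ≤ 1 := Real.exp_le_one_iff.2 (by nlinarith)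
      nlinarith [Real.exp_pos (-(2 * Real.pi) * m)]
    have e2 := lap1 k0 a1 (pow_le_pow_left₀ (norm_nonneg _) e1 2) (hk.trans (by
      rw [sq]; exact mul_le_mul (sm c h2) (sm y hm) q0 (q0.trans (sm c h2))))
    have e3 : Real.exp (-(4 * Real.pi * r)) ≤ ‖ww r y‖ := by
      rw [ww_norm]
      exact Real.exp_le_exp.2 (by nlinarith [(abs_lt.1 (show |y.im| < r from hy)).1])
    have e4 : (2 * Real.pi * Real.exp (-(4 * Real.pi * r))) ^ 2 ≤ ‖deriv (ww r) y‖ ^ 2 := by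
      rw [ww_d]; gcongr
    have e5 : Real.exp (8 * Real.pi * r) * Real.exp (-(4 * Real.pi * r)) ^ 2 = 1 := by
      rw [← Real.exp_nat_mul, ← Real.exp_add, ← Real.exp_zero]; congr 1; push_cast; ring
    have e6 := mul_le_mul_of_nonneg_right e2 (sq_nonneg ‖deriv (ww r) y‖)
    have e7 := mul_le_mul_of_nonneg_left e4 (show 0 ≤ 3 / (4 * k) by positivity)
    have e8 : s * (3 / (4 * k) * (2 * Real.pi * Real.exp (-(4 * Real.pi * r))) ^ 2) =
        3 * Real.pi ^ 2 := by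
      have : s * (3 / (4 * k) * (2 * Real.pi * Real.exp (-(4 * Real.pi * r))) ^ 2) =
        3 * Real.pi ^ 2 * (Real.exp (8 * Real.pi * r) * Real.exp (-(4 * Real.pi * r)) ^ 2) := by
        simp only [hs]; field_simp; ring
      rw [this, e5, mul_one]
    rw [neg_mul] at e6
    have e9 := mul_le_mul_of_nonneg_left (e6.trans (neg_le_neg e7)) s0.le
    rw [mul_neg, e8] at e9
    nlinarith [Real.pi_gt_three]

lemma one {r δ m : ℝ} {c : ℂ} (hr : 0 < r) (δ0 : 0 < δ) (m0 : 0 < m) (h1 : r / 2 ≤ |c.im|)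
    (h2 : |c.im| ≤ r - m) (hδ : 2 * Real.pi * δ ≤ 1)
    (hk : 2 * (4 * Real.pi * δ) ^ 2 ≤ (1 - Real.exp (-(2 * Real.pi) * m) ^ 2) ^ 2) :
    ∃ U : ℂ → ℝ, Bar (St r) U ∧ (∀ t : ℝ, U t ≤ C0 r * δ ^ 2 * (r - |c.im|)) ∧
      ∀ y ∈ St r, UJ U y 0 ∧ (|y.im| ≤ r - m → (∃ j : ℤ, ‖y - j - c‖ ≤ δ) → UJ U y (-1)) := by
  rcases le_total 0 c.im with e | e
  · rw [abs_of_nonneg e] at h1 h2 ⊢
    obtain ⟨U, u1, u2, u3⟩ := up hr δ0 m0 h1 h2 hδ hk
    exact ⟨U, u1, u2, fun y hy => ⟨(u3 y hy).1, fun h => (u3 y hy).2 (abs_le.1 h).2⟩⟩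
  · rw [abs_of_nonpos e] at h1 h2 ⊢
    obtain ⟨U, u1, u2, u3⟩ := up (c := -c) hr δ0 m0 (by simpa using h1) (by simpa using h2) hδ hk
    have mp : ∀ y ∈ St r, -y ∈ St r := fun y hy => by simpa [St] using hy
    have an : ∀ y : ℂ, AnalyticAt ℂ (fun x : ℂ => -x) y := fun y => by fun_prop
    refine ⟨fun y => U (-y), u1.comp (F := fun y => -y) continuous_neg.continuousOn mp, fun t => ?_,
      fun y hy => ⟨?_, fun h ⟨j, hj⟩ => ?_⟩⟩
    · have := u2 (-t)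
      simpa using this
    · simpa using (u3 _ (mp y hy)).1.pull (F := fun x => -x) (an y)
    · have := ((u3 _ (mp y hy)).2 (by rw [Complex.neg_im]; linarith [(abs_le.1 h).1])
        ⟨-j, by rw [← norm_neg]; refine le_of_eq_of_le ?_ hj; congr 1; push_cast; ring⟩).pull
        (F := fun x => -x) (an y)
      simpa using this

/-- a compact set is covered by discs of small total area -/
lemma cover {K : Set ℂ} (hK : IsCompact K) {A : ℝ} (hA : volume K < ENNReal.ofReal A) :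
    ∃ ε : ℝ, 0 < ε ∧ ∀ δ : ℝ, 0 < δ → δ ≤ ε → ∃ I : Finset ℂ, (∀ c ∈ I, c ∈ K) ∧
      I.card * δ ^ 2 ≤ 3 * A ∧ ∀ y ∈ K, ∃ c ∈ I, ‖y - c‖ ≤ δ := by
  obtain ⟨O, o1, o2, o3⟩ := exists_isOpen_lt_of_lt K _ hA
  obtain ⟨ε, ε0, hε⟩ := hK.exists_thickening_subset_open o2 o1
  have A0 : 0 < A := ENNReal.ofReal_pos.1 (lt_of_le_of_lt zero_le hA)
  refine ⟨ε, ε0, fun δ δ0 hδ => ?_⟩
  have s0 : 0 < δ / 3 := by positivity
  obtain ⟨F, f1, f2, f3⟩ := hK.finite_cover_balls s0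
  obtain ⟨u, u1, u2, u3⟩ := Vitali.exists_disjoint_subfamily_covering_enlargement
    (fun a : ℂ => ball a (δ / 3)) F (fun _ => 1) 2 one_lt_two (fun _ _ => zero_le_one) 1
    (fun _ _ => le_rfl) fun a _ => nonempty_ball.2 s0
  have uf := f2.subset u1
  refine ⟨uf.toFinset, fun c hc => f1 (u1 (uf.mem_toFinset.1 hc)), ?_, fun y hy => ?_⟩
  · have h1 : volume (⋃ c ∈ uf.toFinset, ball c (δ / 3)) =
        ∑ c ∈ uf.toFinset, volume (ball c (δ / 3)) :=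
      measure_biUnion_finset (by simpa using u2) fun _ _ => measurableSet_ball
    have h2 : (⋃ c ∈ uf.toFinset, ball c (δ / 3)) ⊆ O := iUnion₂_subset fun c hc z hz =>
      hε (mem_thickening_iff.2 ⟨c, f1 (u1 (uf.mem_toFinset.1 hc)),
        (mem_ball.1 hz).trans_le (by linarith)⟩)
    have h3 := (h1.symm.le.trans (measure_mono h2)).trans o3.le
    simp only [Complex.volume_ball, Finset.sum_const, nsmul_eq_mul] at h3
    have h4 : ((uf.toFinset.card : ENNReal) * (ENNReal.ofReal (δ / 3) ^ 2 * NNReal.pi)) =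
        ENNReal.ofReal (uf.toFinset.card * ((δ / 3) ^ 2 * Real.pi)) := by
      rw [ENNReal.ofReal_mul (Nat.cast_nonneg _), ENNReal.ofReal_mul (sq_nonneg _),
        ENNReal.ofReal_pow s0.le, ENNReal.ofReal_natCast, ← NNReal.coe_real_pi,
        ENNReal.ofReal_coe_nnreal]
    rw [h4, ENNReal.ofReal_le_ofReal_iff A0.le] at h3
    have h5 : (0 : ℝ) ≤ uf.toFinset.card * δ ^ 2 := by positivity
    nlinarith [Real.pi_gt_three]
  · obtain ⟨a, ha, hy'⟩ := mem_iUnion₂.1 (f3 hy)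
    obtain ⟨b, hb, ⟨z, z1, z2⟩, -⟩ := u3 a ha
    refine ⟨b, uf.mem_toFinset.2 hb, ?_⟩
    rw [← dist_eq_norm]
    have := dist_triangle4 y a z b
    rw [mem_ball] at hy' z1 z2
    rw [dist_comm] at z1
    linarith

end Area

open Area in
/-- the potential of a compact set of small area near the edges, repeated with period `1` -/
theorem area_pot {r : ℝ} (hr : 0 < r) : ∃ C : ℝ, 0 < C ∧ ∀ (K : Set ℂ) (τ A : ℝ), IsCompact K →
    K ⊆ St r → τ ≤ r / 2 → (∀ y ∈ K, r - |y.im| ≤ τ) → volume K < ENNReal.ofReal A → 0 ≤ τ →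
    ∃ V : ℂ → ℝ, Bar (St r) V ∧ (∀ t : ℝ, V t ≤ C * τ * A) ∧
      ∀ y ∈ St r, UJ V y 0 ∧ ((∃ j : ℤ, y - j ∈ K) → UJ V y (-1)) := by
  classical
  have p := Real.pi_pos
  refine ⟨3 * C0 r, by have := C0_pos hr; positivity, fun K τ A hK hS hτ hd hA τ0 => ?_⟩
  obtain ⟨m, m0, hm⟩ : ∃ m : ℝ, 0 < m ∧ ∀ y ∈ K, |y.im| ≤ r - m := by
    rcases K.eq_empty_or_nonempty with rfl | hne
    · exact ⟨1, one_pos, fun y hy => absurd hy (notMem_empty y)⟩
    · obtain ⟨z, hz, h⟩ := hK.exists_isMaxOn hne (f := fun y : ℂ => |y.im|)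
        (by fun_prop : Continuous fun y : ℂ => |y.im|).continuousOn
      exact ⟨r - |z.im|, sub_pos.2 (hS hz), fun y hy => by
        have : |y.im| ≤ |z.im| := h hy
        linarith⟩
  obtain ⟨ε, ε0, hε⟩ := cover hK hA
  set q := 1 - Real.exp (-(2 * Real.pi) * m) ^ 2 with hq
  have q0 : 0 < q := by
    have : Real.exp (-(2 * Real.pi) * m) < 1 := Real.exp_lt_one_iff.2 (by nlinarith)
    nlinarith [Real.exp_pos (-(2 * Real.pi) * m)]
  have q1 : q ≤ 1 := sub_le_self _ (sq_nonneg _)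
  set δ := min ε (q / (8 * Real.pi)) with hδ
  have δ0 : 0 < δ := lt_min ε0 (by positivity)
  have δ1 : 8 * Real.pi * δ ≤ q := by
    have := min_le_right ε (q / (8 * Real.pi))
    rwa [← hδ, le_div_iff₀' (by positivity)] at this
  have δ2 : 0 < Real.pi * δ := by positivity
  obtain ⟨I, i1, i2, i3⟩ := hε δ δ0 (min_le_left _ _)
  have H : ∀ c : ℂ, ∃ U : ℂ → ℝ, c ∈ K → Bar (St r) U ∧ (∀ t : ℝ, U t ≤ C0 r * δ ^ 2 * τ) ∧
      ∀ y ∈ St r, UJ U y 0 ∧ (|y.im| ≤ r - m → (∃ j : ℤ, ‖y - j - c‖ ≤ δ) → UJ U y (-1)) :=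
    fun c => by
      by_cases hc : c ∈ K
      · obtain ⟨U, u1, u2, u3⟩ := one (c := c) hr δ0 m0 (by linarith [hd c hc]) (hm c hc)
          (by linarith) (by
            have := pow_le_pow_left₀ (by positivity) δ1 2
            nlinarith [sq_nonneg (Real.pi * δ)])
        exact ⟨U, fun _ => ⟨u1, fun t => (u2 t).trans (mul_le_mul_of_nonneg_left (hd c hc)
          (by have := C0_pos hr; positivity)), u3⟩⟩
      · exact ⟨fun _ => 0, fun h => absurd h hc⟩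
  choose U hU using H
  have jS : ∀ y ∈ St r, ∀ J ⊆ I, UJ (fun y => ∑ c ∈ J, U c y) y 0 := fun y hy J hJ => by
    simpa using UJ.sum J (a := fun _ => 0) fun c hc => ((hU c (i1 c (hJ hc))).2.2 y hy).1
  refine ⟨fun y => ∑ c ∈ I, U c y, Bar.sum _ fun c hc => (hU c (i1 c hc)).1, fun t => ?_,
    fun y hy => ⟨jS y hy I le_rfl, fun ⟨j, hj⟩ => ?_⟩⟩
  · have h1 := Finset.sum_le_card_nsmul I (fun c => U c t) _ fun c hc => (hU c (i1 c hc)).2.1 t
    rw [nsmul_eq_mul] at h1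
    have h2 := mul_le_mul_of_nonneg_left i2 (mul_nonneg (C0_pos hr).le τ0)
    calc _ ≤ _ := h1
      _ = C0 r * τ * (I.card * δ ^ 2) := by ring
      _ ≤ _ := h2
      _ = _ := by ring
  · obtain ⟨c, hc, h⟩ := i3 _ hj
    have h1 := ((hU c (i1 c hc)).2.2 y hy).2 (by simpa using hm _ hj) ⟨j, h⟩
    refine ((h1.add (jS y hy (I.erase c) (Finset.erase_subset _ _))).congr
      (.of_forall fun x => by simp only [← Finset.add_sum_erase _ (fun c => U c x) hc])).mono ?_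
    simp

end Vale.Agent.P097G3
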