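import Vale.Agent.P097G3.Defs
import Vale.Agent.P097G3.Area

/-!
# P097G3: from the area of the band to the barrier (row 1904)
-/

set_option linter.all false

open Filter Topology Set Metric MeasureTheory ComplexConjugate
open Vale.Agent.P097C Vale.Agent.P097O

namespace Vale.Agent.P097G3

theorem bandp : S_BANDP := by
  intro r g hr hg hp H b A ε d₀ b0 A1 ε0 d0
  obtain ⟨C, C0, hC⟩ := area_pot hr
  obtain ⟨d, d1, d2, hv⟩ := H b (2 * A) (ε * r ^ 2 / (4 * C)) (min (d₀ / r) (r / 4)) b0
    (by linarith) (by positivity) (lt_min (by positivity) (by positivity))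
  have dA : 0 < d / (2 * A) := by positivity
  have d3 : d < d₀ / r := d2.trans_le (min_le_left _ _)
  have d4 : d < r / 4 := d2.trans_le (min_le_right _ _)
  set K₀ := {y : ℂ | 0 ≤ y.re ∧ y.re ≤ 1 ∧ d / (2 * A) ≤ r - |y.im| ∧ r - |y.im| ≤ 2 * d} with hK₀
  set K := K₀ ∩ (fun y => ‖g y‖) ⁻¹' Icc (Real.exp (-b)) (Real.exp b) with hK
  have s0 : K₀ ⊆ St r := fun y hy => by
    have h1 : 0 < r - |y.im| := dA.trans_le hy.2.2.1
    show |y.im| < r
    linarith
  have cc : Continuous fun y : ℂ => r - |y.im| := continuous_const.sub Complex.continuous_im.abs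
  have c0 : IsClosed K₀ := (isClosed_le continuous_const Complex.continuous_re).inter
    ((isClosed_le Complex.continuous_re continuous_const).inter
      ((isClosed_le continuous_const cc).inter (isClosed_le cc continuous_const)))
  have b1 : K₀ ⊆ closedBall 0 (1 + r) := fun y hy => by
    rw [mem_closedBall_zero_iff]
    have h1 : |y.re| ≤ 1 := abs_le.2 ⟨by linarith [hy.1], hy.2.1⟩
    have h2 : |y.im| < r := s0 hy
    linarith [Complex.norm_le_abs_re_add_abs_im y]
  have cK : IsCompact K := (isCompact_closedBall 0 (1 + r)).of_isClosed_subset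
    ((hg.mono s0).norm.preimage_isClosed_of_isClosed c0 isClosed_Icc)
    (inter_subset_left.trans b1)
  have sK : K ⊆ St r := inter_subset_left.trans s0
  have vK : volume K < ENNReal.ofReal (ε * r ^ 2 / (4 * C) * d + ε * r ^ 2 / (4 * C) * d) := by
    have h1 : K ⊆ BS r g b (2 * A) d ∪ Complex.conjLIE ⁻¹' BS r g b (2 * A) d := fun y hy => by
      obtain ⟨⟨h1, h2, h3, h4⟩, h5, h6⟩ := id hy
      rcases le_total 0 y.im with h | h
      · rw [abs_of_nonneg h] at h3 h4
        exact Or.inl ⟨h1, h2, h3, h4, h5, h6⟩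
      · rw [abs_of_nonpos h] at h3 h4
        have e := (hp y (sK hy)).1
        refine Or.inr (?_ : conj y ∈ BS r g b (2 * A) d)
        exact ⟨h1, h2, h3, h4, e ▸ h5, e ▸ h6⟩
    have h2 : volume (Complex.conjLIE ⁻¹' BS r g b (2 * A) d) = volume (BS r g b (2 * A) d) :=
      Complex.conjLIE.measurePreserving.measure_preimage_emb
        Complex.conjLIE.toHomeomorph.measurableEmbedding _
    rw [ENNReal.ofReal_add (by positivity) (by positivity)]
    refine ((measure_mono h1).trans (measure_union_le _ _)).trans_lt ?_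
    rw [h2]
    exact ENNReal.add_lt_add hv hv
  obtain ⟨V, v1, v2, v3⟩ := hC K (2 * d) _ cK sK (by linarith) (fun y hy => hy.1.2.2.2) vK
    (by positivity)
  have q0 : 0 ≤ 1 / (r * d) ^ 2 := by positivity
  refine ⟨r * d, by positivity, by rw [lt_div_iff₀ hr] at d3; linarith,
    fun y => 1 / (r * d) ^ 2 * V y, v1.smul q0, fun t => ?_,
    fun y hy => ⟨by simpa using (v3 y hy).1.smul q0, fun h1 h2 h3 h4 => ?_⟩⟩
  · refine (mul_le_mul_of_nonneg_left (v2 t) q0).trans_eq ?_
    field_simp
    ring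
  · have e2 : ‖g (y - (⌊y.re⌋ : ℤ))‖ = ‖g y‖ := by
      have := (hp y hy).2 (-⌊y.re⌋)
      rwa [Int.cast_neg, ← sub_eq_add_neg] at this
    have e3 : (y - (⌊y.re⌋ : ℤ)).re = Int.fract y.re := by simp
    have e4 : (y - (⌊y.re⌋ : ℤ)).im = y.im := by simp
    have y1 : |y.im| < r := hy
    have e5 : dd r y = (r - |y.im|) * (r + |y.im|) := by
      unfold dd
      rw [← sq_abs y.im]
      ring
    have y0 := abs_nonneg y.im
    have t1 : d / (2 * A) ≤ r - |y.im| := by
      rw [div_le_iff₀ (by positivity)] at h1 ⊢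
      rw [e5] at h1
      have h5 : (r - |y.im|) * (r + |y.im|) * A ≤ (r - |y.im|) * (2 * r) * A :=
        mul_le_mul_of_nonneg_right (mul_le_mul_of_nonneg_left (by linarith) (by linarith))
          (by linarith)
      refine le_of_mul_le_mul_left ?_ hr
      linarith
    have t2 : r - |y.im| ≤ 2 * d := by
      rw [e5] at h2
      have h5 : (r - |y.im|) * r ≤ (r - |y.im|) * (r + |y.im|) :=
        mul_le_mul_of_nonneg_left (by linarith) (by linarith)
      refine le_of_mul_le_mul_left ?_ hr
      linarith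
    have := ((v3 y hy).2 ⟨⌊y.re⌋, by
      simp only [hK, hK₀, mem_inter_iff, mem_preimage, mem_Icc, mem_setOf_eq, e2, e3, e4]
      exact ⟨⟨Int.fract_nonneg _, (Int.fract_lt_one _).le, t1, t2⟩, h3, h4⟩⟩).smul q0
    simpa using this

end Vale.Agent.P097G3
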