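import Vale.Agent.P097G3.Defs

/-!
# P097G3, row 1902: polynomial growth in exponential form
-/

set_option linter.all false

open Filter Topology Set Metric
open Vale.Agent.P097C Vale.Agent.P097O

namespace Vale.Agent.P097G3

theorem pg : S_PG := by
  rintro r k θ Q hr ⟨C, hC⟩
  refine ⟨k + 1, C * (2 * r) ^ k, by linarith [(Nat.cast_nonneg k : (0 : ℝ) ≤ k)],
    fun L hL y hy hd => ?_⟩
  have h1 := (hC y hy).1
  have hy' : |y.im| < r := hy
  have h0 := abs_nonneg y.im
  have h2 : Real.exp (-L) ≤ 2 * r * P097Top.dp r y := by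
    refine hd.trans ?_
    unfold dd P097Top.dp
    rw [← sq_abs y.im]
    nlinarith
  have h3 : ‖deriv θ y‖ * Real.exp (-L) ^ k ≤ C * (2 * r) ^ k := by
    calc _ ≤ ‖deriv θ y‖ * (2 * r * P097Top.dp r y) ^ k := by gcongr
      _ = ‖deriv θ y‖ * P097Top.dp r y ^ k * (2 * r) ^ k := by rw [mul_pow]; ring
      _ ≤ _ := by gcongr
  have h4 : C * (2 * r) ^ k ≤ Real.exp L := by linarith [Real.add_one_le_exp L]
  have h5 : Real.exp ((k + 1) * L) * Real.exp (-L) ^ k = Real.exp L := by
    rw [← Real.exp_nat_mul, ← Real.exp_add]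
    congr 1
    ring
  refine le_of_mul_le_mul_right ?_ (pow_pos (Real.exp_pos (-L)) k)
  rw [h5]
  exact h3.trans h4

end Vale.Agent.P097G3
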