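import Vale.Agent.P097G3.Defs
import Vale.Agent.P097K.TopA

/-!
# P097G3: symmetry and period of `|g|` (row SYM)
-/

open Filter Topology Set Metric ComplexConjugate
open Vale.Agent.P097C

namespace Vale.Agent.P097G3

/-- a function which is real on the real line commutes with the conjugation -/
theorem refl_eq {r : ℝ} {g : ℂ → ℂ} (hr : 0 < r) (hg : AnalyticOnNhd ℂ g (St r))
    (h : ∀ t : ℝ, (g t).im = 0) : ∀ y ∈ St r, g (conj y) = conj (g y) := by
  have m : ∀ y ∈ St r, conj y ∈ St r := fun y hy => by simpa [St] using hy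
  have a : AnalyticOnNhd ℂ (conj ∘ g ∘ conj) (St r) :=
    DifferentiableOn.analyticOnNhd (fun y hy => by
      simpa using (hg _ (m y hy)).differentiableAt.conj_conj.differentiableWithinAt) (St_open r)
  have t : Tendsto (fun t : ℝ => (t : ℂ)) (𝓝[≠] 0) (𝓝[≠] 0) :=
    tendsto_nhdsWithin_iff.2 ⟨by
      simpa using (Complex.continuous_ofReal.tendsto 0).mono_left nhdsWithin_le_nhds,
      eventually_mem_nhdsWithin.mono fun t ht => by simpa using ht⟩
  have e := a.eqOn_of_preconnected_of_frequently_eq hg (St_convex r).isPreconnected (St_zero hr)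
    (t.frequently (Eventually.frequently (.of_forall fun t => by
      simpa using Complex.conj_eq_iff_im.2 (h t))))
  intro y hy
  rw [← e hy]
  simp

theorem sym : S_SYM := fun r c C θ h g Q hS y hy =>
  ⟨by rw [refl_eq hS.r0 hS.ang (fun t => (hS.posg t).1) y hy, Complex.norm_conj],
    fun m => by rw [P097K.Tx.g_per hS hy m]⟩

end Vale.Agent.P097G3
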