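import Vale.Agent.P097G3.Defs
import Vale.Agent.P097K.Ker

/-!
# P097G3: the potential form of the input on the angles (row THP)
-/

set_option linter.all false

open Filter Topology Set Metric ComplexConjugate
open Vale.Agent.P097C Vale.Agent.P097K Vale.Agent.P097K.Box

namespace Vale.Agent.P097G3

namespace ThpL

/-- one level, arbitrary weights on the boxes -/
theorem lev {r : ℝ} (hr : 0 < r) : ∃ c : ℝ, 0 < c ∧ ∀ (k : ℕ) (w : ℕ → ℝ), (∀ i, 0 ≤ w i) →
    ∃ V : ℂ → ℝ, Bar (St r) V ∧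
      (∀ t : ℝ, V t ≤ c * ((∑ i ∈ Finset.range (2 ^ k), w i) / 2 ^ k)) ∧ ∀ y ∈ St r, UJ V y 0 ∧
        (Band r k y → w ⌊Int.fract y.re * 2 ^ k⌋₊ ≤ V y ∧
          UJ V y (-(w ⌊Int.fract y.re * 2 ^ k⌋₊ / dd r y ^ 2))) := by
  have c0 : 0 < (1 + 8 / r ^ 2) * (2 * cc r * bb r 0) := by
    have := cc_pos hr; have := bb_pos hr; positivity
  refine ⟨_, c0, fun k w w0 => ?_⟩
  set c := (1 + 8 / r ^ 2) * (2 * cc r * bb r 0)
  set δ : ℝ := (2 ^ k)⁻¹ with hδ
  have k0 : (0 : ℝ) < 2 ^ k := by positivity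
  have δ0 : 0 < δ := by positivity
  have δ1 : δ ≤ 1 := inv_le_one_of_one_le₀ (one_le_pow₀ (by norm_num))
  have δ2 : δ * 2 ^ k = 1 := inv_mul_cancel₀ k0.ne'
  choose U u1 u2 u3 using fun i : ℕ => one hr δ0 δ1 (i * δ)
  have jS : ∀ y ∈ St r, ∀ I : Finset ℕ, UJ (fun y => ∑ i ∈ I, w i * U i y) y 0 :=
    fun y hy I => by
      simpa using UJ.sum I (a := fun i => w i * 0) fun i _ => (u3 i y hy).1.smul (w0 i)
  refine ⟨fun y => ∑ i ∈ Finset.range (2 ^ k), w i * U i y,
    Bar.sum _ fun i _ => (u1 i).smul (w0 i), fun t => ?_, fun y hy => ⟨jS y hy _, fun hB => ?_⟩⟩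
  · refine (Finset.sum_le_sum fun i _ => mul_le_mul_of_nonneg_left (u2 i t) (w0 i)).trans ?_
    rw [← Finset.sum_mul, div_eq_mul_inv _ ((2 : ℝ) ^ k), ← hδ]
    exact le_of_eq (by ring)
  · set u := Int.fract y.re with hu
    have u0 : 0 ≤ u := Int.fract_nonneg _
    have u1' : u < 1 := Int.fract_lt_one _
    have f1 := Nat.floor_le (show 0 ≤ u * 2 ^ k by positivity)
    have f2 := Nat.lt_floor_add_one (u * 2 ^ k)
    set j := ⌊u * 2 ^ k⌋₊
    have e : u = u * 2 ^ k * δ := by rw [mul_assoc, mul_comm _ δ, δ2, mul_one]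
    have g1 : j * δ ≤ u := by rw [e]; gcongr
    have g2 : u < (j + 1) * δ := by rw [e]; gcongr
    have j1 : j ∈ Finset.range (2 ^ k) := by
      have : (j : ℝ) < 2 ^ k := f1.trans_lt (by nlinarith)
      exact Finset.mem_range.2 (by exact_mod_cast this)
    obtain ⟨v1, v2⟩ := (u3 j y hy).2 (le_trans (le_of_eq (by rw [hδ, pow_succ]; field_simp)) hB.1)
      (hB.2.trans_eq (by rw [hδ, div_eq_mul_inv])) ⟨⌊y.re⌋, by
        change |u - j * δ| ≤ δ
        rw [abs_le]
        constructor <;> linarith⟩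
    refine ⟨(le_mul_of_one_le_right (w0 j) v1).trans (Finset.single_le_sum
      (f := fun i => w i * U i y) (fun i _ => mul_nonneg (w0 i) ((u1 i).2 y hy)) j1), ?_⟩
    refine (((v2.smul (w0 j)).add (jS y hy ((Finset.range (2 ^ k)).erase j))).congr
      (.of_forall fun x => by
        simp only [← Finset.add_sum_erase _ (fun i => w i * U i x) j1])).mono ?_
    rw [add_zero, mul_neg, mul_one_div]

theorem dd_le' {r : ℝ} {y : ℂ} (hy : y ∈ St r) : dd r y ≤ 2 * r * (r - |y.im|) := by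
  have h0 : |y.im| < r := hy
  have e : dd r y = (r - |y.im|) * (r + |y.im|) := by rw [dd, ← sq_abs y.im]; ring
  rw [e]
  nlinarith [abs_nonneg y.im]

/-- the dyadic level of a point of moderate depth -/
theorem band {r : ℝ} (hr : 0 < r) {y : ℂ} (hy : y ∈ St r) {L : ℕ} (hL : r ^ 2 < (3 / 2) ^ L)
    (h : Real.exp (-(L / 4)) ≤ dd r y) : ∃ k ≤ L, Band r k y := by
  obtain ⟨k, h1, h2⟩ := exists_lv hr hy
  refine ⟨k, not_lt.1 fun hk => ?_, by rw [div_eq_mul_one_div, ← one_div_pow]; exact h1.le,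
    by rw [div_eq_mul_one_div, ← one_div_pow]; exact h2⟩
  have e1 : (1 / 2 : ℝ) ^ k ≤ (1 / 2) ^ (L + 1) :=
    pow_le_pow_of_le_one (by norm_num) (by norm_num) hk
  have e2 : (3 / 4 : ℝ) ^ L ≤ Real.exp (-(L / 4)) := by
    rw [show -((L : ℝ) / 4) = L * (-(1 / 4)) by ring, Real.exp_nat_mul]
    exact pow_le_pow_left₀ (by norm_num) (by linarith [Real.add_one_le_exp (-(1 / 4) : ℝ)]) L
  have e3 : (3 / 4 : ℝ) ^ L = (3 / 2) ^ L * (1 / 2) ^ L := by rw [← mul_pow]; norm_num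
  have e4 := mul_lt_mul_of_pos_right hL (show (0 : ℝ) < (1 / 2) ^ L by positivity)
  have e5 := mul_le_mul_of_nonneg_left (h2.trans (mul_le_mul_of_nonneg_left e1 hr.le))
    (show 0 ≤ 2 * r by positivity)
  rw [pow_succ] at e5
  nlinarith [dd_le' hy]

end ThpL

open ThpL in
theorem thp : S_THP := by
  intro r g hr hS hT R δ lam₀ R1 δ0
  obtain ⟨c, c0, hc⟩ := lev hr
  have R0 : 0 < R := by linarith
  obtain ⟨L₀, hL₀⟩ := eventually_atTop.1
    (((tendsto_pow_atTop_atTop_of_one_lt (show (1 : ℝ) < 3 / 2 by norm_num)).eventually_gt_atTop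
      (r ^ 2)).and (tendsto_natCast_atTop_atTop.eventually_ge_atTop (lam₀ * (4 * R))))
  obtain ⟨L, hL, b, b0, b1, b2⟩ := hT (δ / (128 * r ^ 2 * c * R ^ 2)) (by positivity) L₀
  obtain ⟨l1, l2⟩ := hL₀ L hL
  choose V v1 v2 v3 using fun k => hc k (fun i => b k i ^ 2) fun i => sq_nonneg _
  have r8 : 0 ≤ 8 * r ^ 2 := by positivity
  have jS : ∀ y ∈ St r, ∀ I : Finset ℕ, UJ (fun y => ∑ k ∈ I, V k y) y 0 := fun y hy I => by
    simpa using UJ.sum I (a := fun _ => 0) fun k _ => (v3 k y hy).1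
  refine ⟨L / (4 * R), (le_div_iff₀ (by positivity)).2 l2,
    fun y => 8 * r ^ 2 * ∑ k ∈ Finset.range (L + 1), V k y, (Bar.sum _ fun k _ => v1 k).smul r8,
    fun t => ?_, fun y hy => ⟨by simpa using (jS y hy _).smul r8, fun hd => ?_⟩⟩
  · have h1 := Finset.sum_le_sum fun k (_ : k ∈ Finset.range (L + 1)) => v2 k t
    rw [← Finset.mul_sum] at h1
    refine (mul_le_mul_of_nonneg_left (h1.trans (mul_le_mul_of_nonneg_left b1 c0.le)) r8).trans_eq ?_
    field_simp
    ring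
  · rw [show (L : ℝ) / (4 * R) * R = L / 4 by field_simp] at hd
    obtain ⟨k, hk, hB⟩ := band hr hy l1 hd
    have h1 : ‖g y‖ * (r - |y.im|) ≤ b k ⌊Int.fract y.re * 2 ^ k⌋₊ := by
      rcases le_total 0 y.im with e | e
      · rw [abs_of_nonneg e]
        exact b2 k hk y hy e hB
      · have := b2 k hk (conj y) (by simpa [St] using hy) (by simpa using e)
          (by simpa [Band] using hB)
        rw [(hS y hy).1, Complex.conj_re, Complex.conj_im] at this
        rwa [abs_of_nonpos e]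
    have k1 : k ∈ Finset.range (L + 1) := Finset.mem_range.2 (Nat.lt_succ_of_le hk)
    have d0 := dd_pos hy
    refine ((((((v3 k y hy).2 hB).2).add (jS y hy ((Finset.range (L + 1)).erase k))).congr
      (.of_forall fun x => by
        simp only [← Finset.add_sum_erase _ (fun i => V i x) k1])).smul r8).mono ?_
    have h2 : ‖g y‖ * dd r y ≤ 2 * r * b k ⌊Int.fract y.re * 2 ^ k⌋₊ := by
      have := mul_le_mul_of_nonneg_left (dd_le' hy) (norm_nonneg (g y))
      have := mul_le_mul_of_nonneg_left h1 (show 0 ≤ 2 * r by positivity)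
      linarith
    have h3 := pow_le_pow_left₀ (by positivity) h2 2
    rw [add_zero, mul_neg, neg_le_neg_iff, ← mul_div_assoc, le_div_iff₀ (by positivity)]
    rw [mul_pow, mul_pow, mul_pow] at h3
    linarith

end Vale.Agent.P097G3
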