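import Vale.Agent.P097O.Core3
import Vale.Agent.P097G3.Sym
import Vale.Agent.P097G3.Pg
import Vale.Agent.P097G3.Bandp
import Vale.Agent.P097G3.Thp

/-!
# P097G3: the core in box and area form
-/

set_option linter.all false

open Vale.Agent.P097C Vale.Agent.P097O

namespace Vale.Agent.P097G3

theorem thb {r : ℝ} {g : ℂ → ℂ} (h : THP r g) : THB r g := fun R ε l R1 e0 => by
  simpa only [mul_comm R] using h R ε l R1 e0

theorem bdb {r : ℝ} {g : ℂ → ℂ} (h : BANDP r g) : BDB r g := fun b A ε d₀ A1 e0 d0 => by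
  obtain ⟨d, d1, d2, V, v1, v2, v3⟩ := h (max b 0) A ε d₀ (le_max_right _ _) A1 e0 d0
  exact ⟨d, d1, d2.le, V, v1, v2, fun y hy => ⟨(v3 y hy).1, fun k1 k2 k3 k4 => (v3 y hy).2 k1 k2
    ((Real.exp_le_exp.2 (neg_le_neg (le_max_left _ _))).trans k3)
    (k4.trans (Real.exp_le_exp.2 (le_max_left _ _)))⟩⟩

/-- the core with the potential form of the angle condition -/
theorem coreP {r c T : ℝ} {k : ℕ} {θ H Q Y φ p : ℂ → ℂ} {n : ℕ} (hc : P097Top.Cur r c θ H Q)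
    (hP : P097E.Pol r k θ Q) (hT : THP r (deriv θ)) (hB : BAND r (deriv θ))
    (hl : P097Top.LeafD r c θ H n T Y φ p) (hr : P097Top.NoReg r n T Y) : False := by
  have hS := P097K.sd_of hc
  have hL := P097K.cl_of hl hr
  haveI : NeZero n := ⟨hL.odd.pos.ne'⟩
  obtain ⟨Y', s, l, τ, η, a1, a2⟩ := alg3 r T c 1 θ H (deriv θ) Q Y φ p n hS hL
  exact P097O.acore n r T c 1 θ H (deriv θ) Q Y' s l τ η hS a1 a2 (pg r k θ Q hS.r0 hP) (thb hT)
    (bdb (bandp r _ hS.r0 hS.ang.continuousOn (sym r c 1 θ H (deriv θ) Q hS) hB))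

theorem core3 : Spec_CORE3 := fun r c T k θ H Q Y φ p n hc hP hT hB hl hr =>
  coreP hc hP (thp r _ hc.rpos (sym r c 1 θ H (deriv θ) Q (P097K.sd_of hc)) hT) hB hl hr

end Vale.Agent.P097G3
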