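import Vale.Agent.P097G3.Defs
import Vale.Agent.P097O.Spec3

/-!
# P097G3: from the band in the upper half to the band in the whole strip
-/

set_option linter.all false

open Filter Topology Set Metric MeasureTheory ComplexConjugate
open Vale.Agent.P097C Vale.Agent.P097O

namespace Vale.Agent.P097G3

theorem bda_of {r : ℝ} {g : ℂ → ℂ} (hr : 0 < r) (hp : Sym r g) (H : BAND r g) : BDA r g := by
  intro b A ε d₀ A1 ε0 d0
  obtain ⟨d, d1, d3, hv⟩ := H (max b 0) (2 * A) (ε * r / 2) (d₀ / r) (le_max_right _ _)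
    (by linarith) (by positivity) (by positivity)
  refine ⟨r * d, by positivity, by rw [lt_div_iff₀ hr] at d3; linarith, ?_⟩
  have h2 : volume (Complex.conjLIE ⁻¹' BS r g (max b 0) (2 * A) d) =
      volume (BS r g (max b 0) (2 * A) d) :=
    Complex.conjLIE.measurePreserving.measure_preimage_emb
      Complex.conjLIE.toHomeomorph.measurableEmbedding _
  rw [show ε * (r * d) = ε * r / 2 * d + ε * r / 2 * d by ring,
    ENNReal.ofReal_add (by positivity) (by positivity)]
  refine ((measure_mono (t := BS r g (max b 0) (2 * A) d ∪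
    Complex.conjLIE ⁻¹' BS r g (max b 0) (2 * A) d) ?_).trans (measure_union_le _ _)).trans_lt
      (by rw [h2]; exact ENNReal.add_lt_add hv hv)
  rintro y ⟨h3, h4, h1, h2, h5, h6⟩
  have p0 : 0 < r ^ 2 - y.im ^ 2 := (show 0 < r * d / A by positivity).trans_le h1
  have y1 : |y.im| < r := abs_lt.2 (abs_lt_of_sq_lt_sq' (by linarith) hr.le)
  have e5 : dd r y = (r - |y.im|) * (r + |y.im|) := by
    unfold dd
    rw [← sq_abs y.im]
    ring
  have y0 := abs_nonneg y.im
  have t1 : d / (2 * A) ≤ r - |y.im| := by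
    rw [div_le_iff₀ (by positivity)] at h1 ⊢
    rw [e5] at h1
    have h5 : (r - |y.im|) * (r + |y.im|) * A ≤ (r - |y.im|) * (2 * r) * A :=
      mul_le_mul_of_nonneg_right (mul_le_mul_of_nonneg_left (by linarith) (by linarith))
        (by linarith)
    refine le_of_mul_le_mul_left ?_ hr
    linarith
  have t2 : r - |y.im| ≤ 2 * d := by
    rw [e5] at h2
    have h5 : (r - |y.im|) * r ≤ (r - |y.im|) * (r + |y.im|) :=
      mul_le_mul_of_nonneg_left (by linarith) (by linarith)
    refine le_of_mul_le_mul_left ?_ hr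
    linarith
  have h7 : Real.exp (-max b 0) ≤ ‖g y‖ :=
    (Real.exp_le_exp.2 (neg_le_neg (le_max_left _ _))).trans h5
  have h8 : ‖g y‖ ≤ Real.exp (max b 0) := h6.trans (Real.exp_le_exp.2 (le_max_left _ _))
  rcases le_total 0 y.im with h | h
  · rw [abs_of_nonneg h] at t1 t2
    exact Or.inl ⟨h3, h4, t1, t2, h7, h8⟩
  · rw [abs_of_nonpos h] at t1 t2
    have e := (hp y y1).1
    refine Or.inr (?_ : conj y ∈ BS r g (max b 0) (2 * A) d)
    exact ⟨h3, h4, t1, t2, e ▸ h7, e ▸ h8⟩

end Vale.Agent.P097G3
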