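import Vale.Agent.P097G3.Defs
import Vale.Agent.P097O.One3

/-!
# P097G3: one set of low vertices
-/

set_option linter.all false

open Vale.Agent.P097C Vale.Agent.P097O

namespace Vale.Agent.P097G3

theorem bdb_of {r : ℝ} {g : ℂ → ℂ} (h : BANDP r g) : BDB r g := by
  intro b A ε d₀ hA hε hd
  obtain ⟨d, d0, d1, V, v1, v2, v3⟩ := h |b| A ε d₀ (abs_nonneg b) hA hε hd
  exact ⟨d, d0, d1.le, V, v1, v2, fun y hy => ⟨(v3 y hy).1, fun a1 a2 a3 a4 => (v3 y hy).2 a1 a2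
    ((Real.exp_le_exp.2 (neg_le_neg (le_abs_self b))).trans a3)
    (a4.trans (Real.exp_le_exp.2 (le_abs_self b)))⟩⟩

theorem wone : S_WONE := by
  intro n _ r ρ g Y hB hY ε hε b N₀
  obtain ⟨N₁, H⟩ := one3 n r ρ g Y (bdb_of hB) hY ε hε b
  exact ⟨max N₀ N₁, le_max_left _ _, fun _ => H _ (le_max_right _ _)⟩

end Vale.Agent.P097G3
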