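import Vale.Agent.P097G3.Defs

/-!
# P097G3: the barrier for the angles
-/

set_option linter.all false

open Filter Topology Set Metric
open Vale.Agent.P097C Vale.Agent.P097O

namespace Vale.Agent.P097G3

theorem wr (hD : S_DPAY) : S_WR := by
  intro n _ r ρ c C θ h g Q Y sd hT cv K ε δ lam₀ K1 ε0 δ0
  have n0 : (0 : ℝ) < n := by exact_mod_cast NeZero.pos n
  have R1 : (1 : ℝ) ≤ (8 * K) ^ n := one_le_pow₀ (by linarith)
  obtain ⟨lam, hl, V, bV, zV, hV⟩ := hT ((8 * K) ^ n) (ε * δ ^ 2 / (2 * n))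
    (max lam₀ (max 1 (8 * n ^ 3 / (ε * δ ^ 2)))) R1 (by positivity)
  have l1 : 1 ≤ lam := ((le_max_left _ _).trans (le_max_right _ _)).trans hl
  have l2 : 8 * (n : ℝ) ^ 3 ≤ lam * (ε * δ ^ 2) :=
    (div_le_iff₀ (by positivity)).1 (((le_max_right _ _).trans (le_max_right _ _)).trans hl)
  obtain ⟨Λ, P, c1, a1, bP, zP, hP⟩ := hD n r ρ g Y cv K lam K1 l1
  have q0 : 0 < ((δ * lam) ^ 2)⁻¹ := by positivity
  have jθ : ∀ x ∈ St ρ, ∀ i, ∃ b, EJ (fun x => (θ (Y x i)).im ^ 2) x b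
      (2 * ‖g (Y x i) * deriv (fun x => Y x i) x‖ ^ 2) := fun x hx i => by
    have a1 := sd.anθ _ (cv.maps hx i)
    have a2 := cv.anY i x hx
    have d1 : deriv (fun x => θ (Y x i)) x = g (Y x i) * deriv (fun x => Y x i) x := by
      rw [← sd.dθ _ (cv.maps hx i)]
      exact (a1.differentiableAt.hasDerivAt.comp x a2.differentiableAt.hasDerivAt).deriv
    refine ⟨_, (EJ.im (F := fun x => θ (Y x i)) (a1.comp_of_eq a2 rfl)).sq.cast rfl ?_⟩
    rw [d1, norm_mul (-Complex.I), norm_neg, Complex.norm_I]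
    ring
  have bS : Bar (St ρ) fun x => ∑ i, V (Y x i) := Bar.sum _ fun j _ => cv.bar bV j
  have bθ : Bar (St ρ) fun x => ∑ i, (θ (Y x i)).im ^ 2 :=
    ⟨fun x hx => ContinuousAt.continuousWithinAt
      (tendsto_finset_sum _ fun i _ => (jθ x hx i).choose_spec.continuousAt),
      fun x _ => Finset.sum_nonneg fun i _ => sq_nonneg _⟩
  refine ⟨lam, (le_max_left _ _).trans hl, Λ, fun x => ((δ * lam) ^ 2)⁻¹ *
    (∑ i, (θ (Y x i)).im ^ 2 + ∑ i, V (Y x i) + P x), c1, a1, ((bθ.add bS).add bP).smul q0.le, ?_,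
    fun x hx => ⟨fun hW j => ?_, fun hd => ?_⟩⟩
  · have e : ∀ i, Y 0 i = ((Y 0 i).re : ℝ) := fun i => Complex.ext rfl (by simp [cv.re0 i])
    have z1 : ∑ i, (θ (Y 0 i)).im ^ 2 = 0 := Finset.sum_eq_zero fun i _ => by
      rw [e i, sd.reθ]
      ring
    have z2 := Finset.sum_le_card_nsmul Finset.univ (fun i => V (Y 0 i))
      (ε * δ ^ 2 / (2 * n) * lam ^ 2) fun i _ => by
        rw [e i]
        exact zV _
    rw [Finset.card_univ, ZMod.card, nsmul_eq_mul] at z2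
    have z3 : n * (ε * δ ^ 2 / (2 * n) * lam ^ 2) = (δ * lam) ^ 2 * ε / 2 := by
      field_simp
    have z4 : Real.exp (-(4 * lam)) ≤ 1 := Real.exp_le_one_iff.2 (by linarith)
    have z5 := mul_le_mul_of_nonneg_left z4 (show 0 ≤ 4 * (n : ℝ) ^ 3 by positivity)
    have z6 : lam * (ε * δ ^ 2) ≤ lam * (ε * δ ^ 2) * lam :=
      le_mul_of_one_le_right (by positivity) l1
    show ((δ * lam) ^ 2)⁻¹ * _ ≤ ε
    rw [inv_mul_le_iff₀ (by positivity), z1, zero_add]
    nlinarith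
  · have h1 : (θ (Y x j)).im ^ 2 ≤ ∑ i, (θ (Y x i)).im ^ 2 :=
      Finset.single_le_sum (f := fun i => (θ (Y x i)).im ^ 2) (fun i _ => sq_nonneg _)
        (Finset.mem_univ j)
    have h2 := (inv_mul_lt_iff₀ (show 0 < (δ * lam) ^ 2 by positivity)).1 hW
    exact abs_le_of_sq_le_sq' (by linarith [bS.2 x hx, bP.2 x hx]) (by positivity) |> abs_le.2
  · have J1 := UJ.sum Finset.univ fun i _ => (jθ x hx i).choose_spec.uj
    by_cases hc : ∀ i, Real.exp (-(lam * (8 * K) ^ n)) ≤ dd r (Y x i)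
    · have J2 := UJ.sum Finset.univ (u := fun i x => V (Y x i)) fun i _ =>
        UJ.pull (F := fun x => Y x i) (cv.anY i x hx) ((hV _ (cv.maps hx i)).2 (hc i))
      refine (((J1.add J2).add (hP x hx).1).smul q0.le).mono
        (mul_nonpos_of_nonneg_of_nonpos q0.le (le_of_eq ?_))
      rw [add_zero, ← Finset.sum_add_distrib]
      exact Finset.sum_eq_zero fun i _ => by rw [norm_mul]; ring
    · push Not at hc
      have J2 := UJ.sum Finset.univ (u := fun i x => V (Y x i)) fun i _ =>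
        UJ.pull (F := fun x => Y x i) (cv.anY i x hx) (hV _ (cv.maps hx i)).1
      refine (((J1.add J2).add ((hP x hx).2 hc hd)).smul q0.le).mono
        (mul_nonpos_of_nonneg_of_nonpos q0.le (le_of_eq ?_))
      simp

end Vale.Agent.P097G3
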